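import Vale.Agent.P207.N4.Dim
import Vale.Agent.P207.N4.H265.DGI
import Vale.Agent.P207.N4.H566.Glob

/-!
# P207, line N3: the metric of the universal cover on the frames
-/

open scoped Manifold ContDiff ENNReal Topology
open Bundle MeasureTheory Set Filter

noncomputable section

set_option maxSynthPendingDepth 3
set_option linter.unusedSectionVars false

namespace Vale.Agent.P207.N4.H607

open Vale.Agent.P207.N3 Vale.Agent.P207.N3.H607

variable [Dim]

open Vale.Agent.P255 (RMetric Metric Npc ExpSys expg)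
open Vale.Agent.P207 Vale.Agent.P207.Q Vale.Agent.P207.N4.H465 Vale.Agent.P207.N3.H465 Vale.Agent.P207.N4.H566 Vale.Agent.P207.N3.H566

variable {n : ℕ} {M : Type} [TopologicalSpace M] [ChartedSpace (EV n) M]
  [IsManifold 𝓘(ℝ, EV n) ∞ M] {g : RMetric (EV n) M} [NeZero n] [CompactSpace M] [T2Space M]
  [Nonempty (Fr g)] (h : Npc (mt g)) (m : M)

/-- the frame vectors in the coordinates of the cover -/
theorem EX_eq (x : XM h m) (c : EV n) :
    H566.EX h m x c = H265.Dx h m x.q (LfE x.f c) := by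
  have h1 : HasFDerivAt (ex (sys g h) m x.q) (H265.Dx h m x.q) (LfE x.f 0) := by
    rw [map_zero]
    exact H265.hasFDerivAt_ex h m x.q
  have h2 : HasFDerivAt (fun u => LfE x.f u) (LfE x.f : EV n →L[ℝ] EV n) 0 :=
    (LfE x.f).hasFDerivAt
  have h3 := HasFDerivAt.comp (g := ex (sys g h) m x.q) (0 : EV n) h1 h2
  have h4 : (ex (sys g h) m x.q ∘ fun u => LfE x.f u) = Exp ((sys g h).cov m) x :=
    funext fun u => (Exp_eq h m x u).symm
  rw [h4] at h3
  exact congrArg (fun L : EV n →L[ℝ] EV n => L c) ((hasFDerivAt_EX h m x).unique h3)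

/-- the frames are orthonormal -/
theorem Gm_EX (x : XM h m) (c c' : EV n) :
    H265.Gm g m x.q (H566.EX h m x c) (H566.EX h m x c') = inner ℝ c c' := by
  have h1 : (sys g h).e m x.q = x.f.pt := PB.e_q x
  rw [EX_eq, EX_eq, H265.Gm_Dx, h1, ip_LfE]

end Vale.Agent.P207.N4.H607
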