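import Vale.Agent.P207.N4.Dim
import Vale.Agent.P207.N4.H607.RieA
import Vale.Agent.P207.N4.H265.GeoX

/-!
# P207, line N3: `GeoX` for the input structure of the geometry
-/

open Set Filter Topology Metric Real
open scoped ContDiff
open Vale.Agent.P207.N4.H728 Vale.Agent.P207.N3.H728 Vale.Agent.P207.N4.H709 Vale.Agent.P207.N3.H709 Vale.Agent.P207.N4.H76 Vale.Agent.P207.N3.H76

set_option linter.unusedSectionVars false

noncomputable section

namespace Vale.Agent.P207.N4.H607

open Vale.Agent.P207.N3 Vale.Agent.P207.N3.H607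

variable [Dim]

variable {Γ X Y : Type} [Group Γ] [MetricSpace X] [ProperSpace X] [MetricSpace Y]
  [ProperSpace Y] [MulAction Γ X] [MulAction Γ Y] [IsIsometricSMul Γ X] [IsIsometricSMul Γ Y]
  {G : Geo Γ X Y} {V : Type} [NormedAddCommGroup V] [NormedSpace ℝ V] {j : Y ≃ₜ V}

section Bd

variable {o : Y} [MulAction Γ (Bd o)] [ContinuousConstSMul Γ (Bd o)] [FiniteDimensional ℝ V]

/-- **the remaining facts of the geometry** -/
theorem geoX (D : G.Dir j) (R : Rie G j) (hinv : H459.InvThm) {r₀ : ℝ}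
    (hr : (G.pre (D.sm3 o)).Small r₀) {L : Leaf Γ X (Bd o)} (hL : Of G o r₀ L) :
    GeoX (geoIn D R hinv hr hL) where
  A_rot a x s u := in_rot D R hinv hr hL a x s u
  A_smul g x z := in_smul D R hinv hr hL g x z
  E_rot a x c := in_E_rot D R hinv hr hL a x c
  E_smul g x c := in_E_smul D R hinv hr hL g x c
  frames x y h := in_frames D R hinv hr hL x y h
  act_one q := in_act_one D R hinv hr hL q
  act_mul g g' q := in_act_mul D R hinv hr hL g g' q
  act_iso g q v w := in_act_iso D R hinv hr hL g q v w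
  exists_base := by
    obtain ⟨x, -, h⟩ := exists_base D R hinv hr hL
    exact ⟨x, h⟩
  le x q := in_le D R hinv hr hL x q
  eq_line x q h := in_eq_line D R hinv hr hL x q h

end Bd

section Leaf

variable [FiniteDimensional ℝ V] {I : G.In3 j} {r₀ t₁ χ : ℝ} (hc : Geo.Cst I r₀ t₁ χ)
  (R : Rie G j) (o : Y)

/-- **the remaining facts of the geometry, for the leaf structure at the base point `o`** -/
theorem geoXL : GeoX (geoInL hc R o) :=
  letI := G.actB o
  haveI := G.contB o
  geoX I.D R H459.invThm (hc.small o) (of_leaf hc o)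

/-- the frames over the base point -/
theorem baseL {x : X} (hx : G.ft x = o) (ξ : G.Bnd o) :
    (geoInL hc R o).b ξ ((geoInL hc R o).S.ft x) = 0 := by
  letI := G.actB o
  haveI := G.contB o
  have h : (geoInL hc R o).S.ft x = j o := congrArg j hx
  rw [h]
  exact in_b_base I.D R H459.invThm (hc.small o) (of_leaf hc o) ξ

theorem D_leL [MeasurableSpace (G.Bnd o)] [BorelSpace (G.Bnd o)] (A : Area (hc.leaf o))
    {ξ η : G.Bnd o} (h : ξ ≠ η) (q : V) :
    A.D ξ η ≤ (geoInL hc R o).b ξ q + (geoInL hc R o).b η q := by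
  obtain ⟨x, rfl, rfl, -⟩ := (hc.leaf o).exists_frame ξ η h 0
  rw [A.D_eq]
  exact (geoXL hc R o).le x q

end Leaf

end Vale.Agent.P207.N4.H607
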